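import Vale.Agent.P217.Theta.Congr
import Vale.Agent.P217.Eval.Basic
import Mathlib.Algebra.Ring.Periodic
import Mathlib.Topology.Algebra.InfiniteSum.NatInt
import Mathlib.Analysis.SpecificLimits.Normed

/-!
# P217: the periods of a point of the universal cover
-/

noncomputable section

set_option linter.unusedSectionVars false

namespace Vale.Agent.P217.Period

open Finset Filter Topology

variable {p : ℕ} [hp : Fact p.Prime] {C : Type} [NormedField C] [IsUltrametricDist C]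
  [CompleteSpace C] [CharP C p] [PerfectRing C p]

/-! ## `zroot` -/

lemma zroot_natCast (η : C) (a : ℕ) : zroot p η (a : ℤ) = η ^ p ^ a := rfl

lemma zroot_zero (η : C) : zroot p η 0 = η := by
  change η ^ p ^ 0 = η
  rw [pow_zero, pow_one]

lemma zroot_neg (η : C) (m : ℕ) : zroot p η (-(m : ℤ)) = root p η m := by
  rcases m with - | m
  · simp [zroot_zero, Theta.root_zero]
  · rw [show -((m + 1 : ℕ) : ℤ) = Int.negSucc m by rw [Int.negSucc_eq]; push_cast; ring]
    rfl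

lemma zroot_sub (η : C) (a b : ℕ) : zroot p η ((a : ℤ) - b) = root p (η ^ p ^ a) b := by
  rcases le_or_gt b a with h | h
  · obtain ⟨d, rfl⟩ := Nat.exists_eq_add_of_le h
    rw [show ((b + d : ℕ) : ℤ) - b = (d : ℤ) by push_cast; ring, zroot_natCast]
    refine (Theta.root_eq_iff.2 ?_).symm
    rw [← pow_mul, ← pow_add, add_comm]
  · obtain ⟨d, rfl⟩ := Nat.exists_eq_add_of_le h.le
    rw [show (a : ℤ) - ((a + d : ℕ) : ℤ) = -(d : ℤ) by push_cast; ring, zroot_neg,
      Theta.root_pow_comm]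

lemma exists_sub (z : ℤ) : ∃ a b : ℕ, z = (a : ℤ) - b :=
  ⟨z.toNat, (-z).toNat, (Int.toNat_sub_toNat_neg z).symm⟩

lemma root_pow_nat (η : C) (m b : ℕ) : root p (η ^ m) b = root p η b ^ m := by
  rw [Theta.root_eq_iff, ← pow_mul, mul_comm, pow_mul, Theta.root_pow]

lemma zroot_pow (η : C) (m : ℕ) (z : ℤ) : zroot p (η ^ m) z = zroot p η z ^ m := by
  obtain ⟨a, b, rfl⟩ := exists_sub z
  rw [zroot_sub, zroot_sub, ← pow_mul, mul_comm, pow_mul, root_pow_nat]

lemma zroot_mul (c η : C) (z : ℤ) : zroot p (c * η) z = zroot p c z * zroot p η z := by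
  obtain ⟨a, b, rfl⟩ := exists_sub z
  rw [zroot_sub, zroot_sub, zroot_sub, mul_pow]
  rw [Theta.root_eq_iff, mul_pow, Theta.root_pow, Theta.root_pow]

lemma zroot_pow_p (η : C) (j : ℕ) (z : ℤ) : zroot p (η ^ p ^ j) z = zroot p η (z + j) := by
  obtain ⟨a, b, rfl⟩ := exists_sub z
  rw [zroot_sub, show (a : ℤ) - b + j = ((a + j : ℕ) : ℤ) - b by push_cast; ring, zroot_sub,
    ← pow_mul, ← pow_add, add_comm]

lemma zroot_add (η : C) (z : ℤ) (j : ℕ) : zroot p η (z + j) = zroot p η z ^ p ^ j := by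
  rw [← zroot_pow_p, zroot_pow]

lemma zroot_periodic {c : C} {n : ℕ} (hc : c ^ p ^ n = c) :
    Function.Periodic (zroot p c) (n : ℤ) := fun z => by rw [← zroot_pow_p, hc]

lemma norm_zroot_lt {η : C} (h : ‖η‖ < 1) (z : ℤ) : ‖zroot p η z‖ < 1 := by
  obtain ⟨a, b, rfl⟩ := exists_sub z
  rw [zroot_sub]
  refine Theta.norm_root_lt ?_ b
  rw [norm_pow]
  exact pow_lt_one₀ (norm_nonneg _) h (pow_ne_zero _ hp.out.ne_zero)

lemma zroot_ne_zero {η : C} (h : η ≠ 0) (z : ℤ) : zroot p η z ≠ 0 := by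
  obtain ⟨a, b, rfl⟩ := exists_sub z
  rw [zroot_sub]
  intro h0
  have := Theta.root_pow (p := p) (η ^ p ^ a) b
  rw [h0, zero_pow (pow_ne_zero _ hp.out.ne_zero)] at this
  exact pow_ne_zero _ h this.symm

lemma zroot_zero_left (z : ℤ) : zroot p (0 : C) z = 0 := by
  obtain ⟨a, b, rfl⟩ := exists_sub z
  rw [zroot_sub, zero_pow (pow_ne_zero _ hp.out.ne_zero), Theta.root_zero_left]

/-- An upper bound for the norm of `zroot η z` when `‖η‖ ≤ r₀`. -/
def bd (p : ℕ) (r₀ : ℝ) (z : ℤ) : ℝ := if 0 ≤ z then r₀ ^ p ^ z.toNat else 1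

lemma bd_nonneg {r₀ : ℝ} (h : 0 ≤ r₀) (z : ℤ) : 0 ≤ bd p r₀ z := by
  unfold bd; split_ifs <;> positivity

lemma norm_zroot_le {η : C} {r₀ : ℝ} (h : ‖η‖ ≤ r₀) (h1 : r₀ < 1) (z : ℤ) :
    ‖zroot p η z‖ ≤ bd p r₀ z := by
  unfold bd
  split_ifs with hz
  · lift z to ℕ using hz
    rw [zroot_natCast, norm_pow, Int.toNat_natCast]
    exact pow_le_pow_left₀ (norm_nonneg _) h _
  · exact (norm_zroot_lt (h.trans_lt h1) z).le

lemma continuous_zroot (z : ℤ) {η : C} {s : ℕ → C} (h : Tendsto s atTop (𝓝 η)) :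
    Tendsto (fun m => zroot p (s m) z) atTop (𝓝 (zroot p η z)) := by
  obtain ⟨a, b, rfl⟩ := exists_sub z
  simp only [zroot_sub]
  have hpow := h.pow (p ^ a)
  rw [Metric.tendsto_atTop] at hpow ⊢
  intro ε hε
  obtain ⟨N, hN⟩ := hpow ((ε / 2) ^ p ^ b) (by positivity)
  refine ⟨N, fun m hm => lt_of_le_of_lt ?_ (half_lt_self hε)⟩
  rw [dist_eq_norm]
  refine Theta.norm_root_sub_le (by positivity) ?_
  rw [← dist_eq_norm]
  exact (hN m hm).le

/-! ## Facts on `ℂ_[p]` -/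

lemma norm_p : ‖(p : ℂ_[p])‖ = (p : ℝ)⁻¹ := by
  rw [← map_natCast (algebraMap ℚ_[p] ℂ_[p]) p]
  exact (PadicComplex.norm_extends' p _).trans Padic.norm_p

lemma p_pos : 0 < (p : ℝ) := by exact_mod_cast hp.out.pos

lemma one_lt_p : 1 < (p : ℝ) := by exact_mod_cast hp.out.one_lt

lemma inv_p_nonneg : 0 ≤ (p : ℝ)⁻¹ := inv_nonneg.2 p_pos.le

lemma inv_p_lt_one : (p : ℝ)⁻¹ < 1 := inv_lt_one_of_one_lt₀ one_lt_p

lemma p_ne_zero : (p : ℂ_[p]) ≠ 0 := by exact_mod_cast hp.out.ne_zero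

lemma norm_p_zpow_neg (k : ℤ) : ‖(p : ℂ_[p]) ^ (-k)‖ = (p : ℝ) ^ k := by
  rw [norm_zpow, norm_p, zpow_neg, inv_zpow, inv_inv]

section Ultra

variable {D : Type*} [NormedField D] [IsUltrametricDist D]

/-- Raising to the power `q` improves congruences by `‖q‖`. -/
lemma norm_pow_sub_pow_le {x y : D} {q : ℕ} {s : ℝ} (hx : ‖x‖ ≤ 1) (hy : ‖y‖ ≤ 1)
    (h : ‖x - y‖ ≤ s) (hs : s ≤ ‖(q : D)‖) : ‖x ^ q - y ^ q‖ ≤ s * ‖(q : D)‖ := by
  have hpow : ∀ k, ‖x ^ k - y ^ k‖ ≤ ‖x - y‖ := by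
    intro k
    induction k with
    | zero => simp
    | succ k ih =>
      rw [show x ^ (k + 1) - y ^ (k + 1) = x * (x ^ k - y ^ k) + (x - y) * y ^ k by ring]
      refine (IsUltrametricDist.norm_add_le_max _ _).trans (max_le ?_ ?_) <;> rw [norm_mul]
      · exact (mul_le_of_le_one_left (norm_nonneg _) hx).trans ih
      · exact mul_le_of_le_one_right (norm_nonneg _)
          (by rw [norm_pow]; exact pow_le_one₀ (norm_nonneg _) hy)
  rw [← geom_sum₂_mul x y q, mul_comm, norm_mul]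
  refine mul_le_mul h ?_ (norm_nonneg _) ((norm_nonneg _).trans h)
  have hsplit : ∑ i ∈ range q, x ^ i * y ^ (q - 1 - i) =
      (∑ i ∈ range q, (x ^ i - y ^ i) * y ^ (q - 1 - i)) + (q : D) * y ^ (q - 1) := by
    have hc : (q : D) * y ^ (q - 1) = ∑ i ∈ range q, y ^ i * y ^ (q - 1 - i) := by
      rw [Finset.sum_congr rfl fun i hi => ?_, Finset.sum_const, Finset.card_range, nsmul_eq_mul]
      rw [← pow_add]
      congr 1
      have := Finset.mem_range.1 hi
      omega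
    rw [hc, ← Finset.sum_add_distrib]
    exact Finset.sum_congr rfl fun i _ => by ring
  rw [hsplit]
  refine (IsUltrametricDist.norm_add_le_max _ _).trans (max_le ?_ ?_)
  · refine IsUltrametricDist.norm_sum_le_of_forall_le_of_nonneg (norm_nonneg _) fun i _ => ?_
    rw [norm_mul, norm_pow]
    exact (mul_le_of_le_one_right (norm_nonneg _) (pow_le_one₀ (norm_nonneg _) hy)).trans
      ((hpow i).trans (h.trans hs))
  · rw [norm_mul, norm_pow]
    exact mul_le_of_le_one_right (norm_nonneg _) (pow_le_one₀ (norm_nonneg _) hy)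

variable [CompleteSpace D]

/-- Dominated convergence. -/
lemma tendsto_tsum_of_dominated {ι : Type*} {f : ℕ → ι → D} {g : ι → D} {b : ι → ℝ}
    (hb : Tendsto b cofinite (𝓝 0)) (hf : ∀ m i, ‖f m i‖ ≤ b i)
    (hg : ∀ i, Tendsto (fun m => f m i) atTop (𝓝 (g i))) :
    Tendsto (fun m => ∑' i, f m i) atTop (𝓝 (∑' i, g i)) := by
  have hgb : ∀ i, ‖g i‖ ≤ b i := fun i => le_of_tendsto' (hg i).norm fun m => hf m i
  have hsf : ∀ m, Summable (f m) := fun m =>
    NonarchimedeanAddGroup.summable_of_tendsto_cofinite_zero (squeeze_zero_norm (hf m) hb)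
  have hsg : Summable g :=
    NonarchimedeanAddGroup.summable_of_tendsto_cofinite_zero (squeeze_zero_norm hgb hb)
  rw [tendsto_iff_norm_sub_tendsto_zero, Metric.tendsto_nhds]
  intro ε hε
  have hfin : {i | ¬ b i < ε / 2}.Finite :=
    eventually_cofinite.1 (hb.eventually (gt_mem_nhds (half_pos hε)))
  have hev : ∀ i ∈ hfin.toFinset, ∀ᶠ m in atTop, ‖f m i - g i‖ ≤ ε / 2 := fun i _ =>
    (tendsto_iff_norm_sub_tendsto_zero.1 (hg i)).eventually_le_const (half_pos hε)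
  filter_upwards [(Filter.eventually_all_finset _).2 hev] with m hm
  rw [Real.dist_0_eq_abs, abs_norm, ← (hsf m).tsum_sub hsg]
  refine lt_of_le_of_lt (Eval.norm_tsum_le (half_pos hε).le fun i => ?_) (half_lt_self hε)
  by_cases hi : b i < ε / 2
  · exact (Eval.norm_sub_le_max' _ _).trans (max_le ((hf m i).trans hi.le) ((hgb i).trans hi.le))
  · exact hm i (hfin.mem_toFinset.2 hi)

/-- A unique largest term gives a nonzero sum. -/
lemma tsum_ne_zero_of_unique_max {ι : Type*} {f : ι → D} (hf : Summable f) (i₀ : ι)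
    (h0 : f i₀ ≠ 0) (h : ∀ i ≠ i₀, ‖f i‖ < ‖f i₀‖) : ∑' i, f i ≠ 0 := by
  classical
  have hlim : Tendsto (fun i => ‖f i‖) cofinite (𝓝 0) := by
    simpa using hf.tendsto_cofinite_zero.norm
  set a := ‖f i₀‖
  have ha : 0 < a := norm_pos_iff.2 h0
  have hfin : {i | ¬ ‖f i‖ < a / 2}.Finite :=
    eventually_cofinite.1 (hlim.eventually (gt_mem_nhds (half_pos ha)))
  obtain ⟨s, hs0, hsa, hs⟩ : ∃ s : ℝ, 0 ≤ s ∧ s < a ∧ ∀ i ≠ i₀, ‖f i‖ ≤ s := by
    set T := (hfin.toFinset.erase i₀).image fun i => ‖f i‖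
    refine ⟨(insert (a / 2) T).max' (Finset.insert_nonempty _ _), ?_, ?_, fun i hi => ?_⟩
    · exact (half_pos ha).le.trans (Finset.le_max' _ _ (Finset.mem_insert_self _ _))
    · rw [Finset.max'_lt_iff]
      intro t ht
      rcases Finset.mem_insert.1 ht with rfl | ht
      · exact half_lt_self ha
      · obtain ⟨i, hi, rfl⟩ := Finset.mem_image.1 ht
        exact h i (Finset.ne_of_mem_erase hi)
    · by_cases hb : ‖f i‖ < a / 2
      · exact hb.le.trans (Finset.le_max' _ _ (Finset.mem_insert_self _ _))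
      · have hm : i ∈ hfin.toFinset.erase i₀ := Finset.mem_erase.2 ⟨hi, hfin.mem_toFinset.2 hb⟩
        have hT : ‖f i‖ ∈ T := Finset.mem_image.2 ⟨i, hm, rfl⟩
        exact Finset.le_max' _ _ (Finset.mem_insert_of_mem hT)
  have : DecidableEq ι := Classical.decEq ι
  have hsplit := hasSum_ite_sub_hasSum hf.hasSum i₀
  rw [show ∑' i, f i = f i₀ + ∑' i, if i = i₀ then 0 else f i by rw [hsplit.tsum_eq]; ring]
  intro hz
  have hrest : ‖∑' i, if i = i₀ then 0 else f i‖ ≤ s := Eval.norm_tsum_le hs0 fun i => by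
    split_ifs with hi
    · rwa [norm_zero]
    · exact hs i hi
  have heq : ‖∑' i, if i = i₀ then 0 else f i‖ = a := by
    rw [← norm_neg, neg_eq_of_add_eq_zero_left hz]
  linarith [heq ▸ hrest]

end Ultra

/-! ## The double exponential beats the exponential -/

lemma eventually_mul_le_pow (N : ℕ) : ∀ᶠ k : ℕ in atTop, N * k ≤ p ^ k := by
  have h := (tendsto_pow_const_div_const_pow_of_one_lt 1 (one_lt_p (p := p))).eventually
    (gt_mem_nhds (show (0 : ℝ) < 1 / (N + 1) by positivity))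
  filter_upwards [h] with k hk
  rw [pow_one, div_lt_div_iff₀ (pow_pos p_pos k) (by positivity), one_mul] at hk
  have : (N * k : ℝ) ≤ (p : ℝ) ^ k := by nlinarith [Nat.cast_nonneg (α := ℝ) k]
  exact_mod_cast this

lemma tendsto_dexp {x A : ℝ} (hx0 : 0 ≤ x) (hx1 : x < 1) (hA : 0 ≤ A) :
    Tendsto (fun k : ℕ => x ^ p ^ k * A ^ k) atTop (𝓝 0) := by
  obtain ⟨N, hN⟩ : ∃ N : ℕ, x ^ N * A < 1 :=
    (((tendsto_pow_atTop_nhds_zero_of_lt_one hx0 hx1).mul_const A).eventually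
      (gt_mem_nhds (by rw [zero_mul]; exact one_pos))).exists
  refine squeeze_zero' (Eventually.of_forall fun k => by positivity) ?_
    (tendsto_pow_atTop_nhds_zero_of_lt_one (by positivity) hN)
  filter_upwards [eventually_mul_le_pow (p := p) N] with k hk
  rw [mul_pow, ← pow_mul]
  exact mul_le_mul_of_nonneg_right (pow_le_pow_of_le_one hx0 hx1.le hk) (by positivity)

lemma tendsto_zpow_atBot : Tendsto (fun k : ℤ => (p : ℝ) ^ k) atBot (𝓝 0) := by
  have h : Tendsto (fun k : ℤ => (-k).toNat) atBot atTop :=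
    tendsto_atTop.2 fun N => eventually_atBot.2 ⟨-(N : ℤ), fun k hk => by omega⟩
  refine ((tendsto_pow_atTop_nhds_zero_of_lt_one (inv_p_nonneg (p := p)) inv_p_lt_one).comp h).congr' ?_
  filter_upwards [eventually_le_atBot (0 : ℤ)] with k hk
  obtain ⟨m, rfl⟩ : ∃ m : ℕ, k = -(m : ℤ) := ⟨(-k).toNat, by omega⟩
  simp

lemma tendsto_bd (n : ℕ) (hn : 1 ≤ n) (r : ℤ) {r₀ : ℝ} (h0 : 0 ≤ r₀) (h1 : r₀ < 1) :
    Tendsto (fun k : ℤ => bd p r₀ (r + n * k) * (p : ℝ) ^ k) cofinite (𝓝 0) := by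
  rw [Int.cofinite_eq, tendsto_sup]
  constructor
  · refine squeeze_zero' (Eventually.of_forall fun k =>
      mul_nonneg (bd_nonneg h0 _) (zpow_nonneg p_pos.le _)) ?_
      (tendsto_zpow_atBot (p := p))
    filter_upwards [eventually_lt_atBot (-|r|)] with k hk
    have : r + n * k < 0 := by
      have h1 := le_abs_self r
      have h2 : (n : ℤ) * k ≤ 1 * k := by
        nlinarith [Int.ofNat_le.2 hn, abs_nonneg r]
      linarith
    rw [bd, if_neg (not_le.2 this), one_mul]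
  · rw [← Nat.map_cast_int_atTop, tendsto_map'_iff]
    set R := r.natAbs
    suffices h : Tendsto (fun j : ℕ => bd p r₀ (r + n * ((j + R : ℕ) : ℤ)) * (p : ℝ) ^ ((j + R : ℕ) : ℤ))
        atTop (𝓝 0) from (tendsto_add_atTop_iff_nat R).1 h
    refine squeeze_zero (fun j => mul_nonneg (bd_nonneg h0 _) (zpow_nonneg p_pos.le _))
      (fun j => ?_) ((tendsto_dexp (p := p) h0 h1 (p_pos (p := p)).le).mul_const ((p : ℝ) ^ R) |>.trans
        (by rw [zero_mul]))
    have hz : (j : ℤ) ≤ r + n * ((j + R : ℕ) : ℤ) := by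
      have h1 : -(R : ℤ) ≤ r := by simp only [R]; omega
      have h2 : ((j + R : ℕ) : ℤ) ≤ n * ((j + R : ℕ) : ℤ) :=
        le_mul_of_one_le_left (Int.natCast_nonneg _) (by exact_mod_cast hn)
      push_cast at h2 ⊢
      linarith
    rw [bd, if_pos (le_trans (Int.natCast_nonneg j) hz), zpow_natCast, pow_add, ← mul_assoc]
    refine mul_le_mul_of_nonneg_right (mul_le_mul_of_nonneg_right ?_ (by positivity)) (by positivity)
    exact pow_le_pow_of_le_one h0 h1.le (Nat.pow_le_pow_right hp.out.pos (by omega))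

end Vale.Agent.P217.Period
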