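import Vale.Agent.P217.Period.Basic

/-!
# P217: formal properties and nonvanishing of periods
-/

noncomputable section

set_option linter.unusedSectionVars false

namespace Vale.Agent.P217.Period

open Finset Filter Topology

variable {p : ℕ} [hp : Fact p.Prime] {C : Type} [NormedField C] [IsUltrametricDist C]
  [CompleteSpace C] [CharP C p] [PerfectRing C p] (S : Sharp p C) (n : ℕ)

/-- The terms of a period. -/
def term (η : C) (r k : ℤ) : ℂ_[p] := S.ρ (zroot p η (r + n * k)) * (p : ℂ_[p]) ^ (-k)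

lemma per_eq (η : C) (r : ℤ) : per p n S η r = ∑' k, term S n η r k := rfl

lemma norm_term (η : C) (r k : ℤ) :
    ‖term S n η r k‖ = ‖zroot p η (r + n * k)‖ * (p : ℝ) ^ k := by
  rw [term, norm_mul, S.norm_eq, norm_p_zpow_neg]

lemma norm_term_le {η : C} {r₀ : ℝ} (h : ‖η‖ ≤ r₀) (h1 : r₀ < 1) (r k : ℤ) :
    ‖term S n η r k‖ ≤ bd p r₀ (r + n * k) * (p : ℝ) ^ k := by
  rw [norm_term]
  exact mul_le_mul_of_nonneg_right (norm_zroot_le h h1 _) (zpow_nonneg p_pos.le _)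

lemma summable_term (hn : 1 ≤ n) {η : C} (hη : ‖η‖ < 1) (r : ℤ) : Summable (term S n η r) :=
  NonarchimedeanAddGroup.summable_of_tendsto_cofinite_zero
    (squeeze_zero_norm (fun k => norm_term_le S n le_rfl hη r k)
      (tendsto_bd n hn r (norm_nonneg η) hη))

lemma per_add_n (η : C) (r : ℤ) : per p n S η (r + n) = p * per p n S η r := by
  rw [per_eq, per_eq, ← tsum_mul_left, ← (Equiv.addRight (1 : ℤ)).tsum_eq
    (fun k => (p : ℂ_[p]) * term S n η r k)]
  refine tsum_congr fun k => ?_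
  rw [term, term, Equiv.coe_addRight, show r + n + n * k = r + n * (k + 1) by ring,
    show -k = 1 + -(k + 1) by ring, zpow_add₀ p_ne_zero, zpow_one]
  ring

lemma per_pow (η : C) (r : ℤ) (j : ℕ) :
    per p n S (η ^ p ^ j) r = per p n S η (r + j) := by
  rw [per_eq, per_eq]
  refine tsum_congr fun k => ?_
  rw [term, term, zroot_pow_p, show r + n * k + j = r + j + n * k by ring]

lemma per_zero (r : ℤ) : per p n S 0 r = 0 := by
  rw [per_eq, tsum_congr fun k => show term S n 0 r k = 0 by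
    rw [term, zroot_zero_left, map_zero, zero_mul], tsum_zero]

lemma per_mul (hn : 1 ≤ n) {c : C} (hc : c ^ p ^ n = c) (η : C) (r : ℤ) :
    per p n S (c * η) r = S.ρ c ^ p ^ (r % (n : ℤ)).toNat * per p n S η r := by
  rw [per_eq, per_eq, ← tsum_mul_left]
  refine tsum_congr fun k => ?_
  have hper := zroot_periodic (p := p) hc
  have h0 : 0 ≤ r % (n : ℤ) := Int.emod_nonneg r (by omega)
  have hz : zroot p c (r + n * k) = c ^ p ^ (r % (n : ℤ)).toNat := by
    rw [show r + n * k = r % (n : ℤ) + (r / n + k) * n by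
      linear_combination -(Int.emod_add_ediv_mul r n)]
    have hh : zroot p c (r % (n : ℤ) + (r / n + k) * n) = zroot p c (r % (n : ℤ)) := by
      simpa using hper.int_mul (r / n + k) (r % (n : ℤ))
    rw [hh]
    conv_lhs => rw [← Int.toNat_of_nonneg h0]
    rfl
  rw [term, term, zroot_mul, map_mul, hz, map_pow]
  ring

/-! ### continuity -/

lemma norm_inv_pow_le (j : ℕ) : ((p : ℝ)⁻¹) ^ (j + 1) ≤ (p : ℝ)⁻¹ :=
  pow_le_of_le_one inv_p_nonneg inv_p_lt_one.le (Nat.succ_ne_zero j)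

lemma norm_pow_p_pow_sub_le {x y : ℂ_[p]} (hx : ‖x‖ ≤ 1) (hy : ‖y‖ ≤ 1) {j : ℕ}
    (h : ‖x - y‖ ≤ (p : ℝ)⁻¹ ^ (j + 1)) :
    ∀ m, ‖x ^ p ^ m - y ^ p ^ m‖ ≤ (p : ℝ)⁻¹ ^ (j + m + 1)
  | 0 => by simpa using h
  | m + 1 => by
    rw [pow_succ p m, pow_mul, pow_mul, show j + (m + 1) + 1 = (j + m + 1) + 1 by ring,
      pow_succ _ (j + m + 1)]
    have := norm_pow_sub_pow_le (D := ℂ_[p]) (q := p) (x := x ^ p ^ m) (y := y ^ p ^ m)
      (by rw [norm_pow]; exact pow_le_one₀ (norm_nonneg _) hx)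
      (by rw [norm_pow]; exact pow_le_one₀ (norm_nonneg _) hy)
      (norm_pow_p_pow_sub_le hx hy h m) (by rw [norm_p]; exact norm_inv_pow_le _)
    rwa [norm_p] at this

lemma nearAdd : Theta.NearAdd S.ρ (p : ℝ)⁻¹ :=
  ⟨inv_p_nonneg, inv_p_lt_one, S.norm_eq, fun a b ha hb => by
    rw [← one_div]; exact S.add_le a b ha hb⟩

lemma norm_rho_sub_le {a b : C} (ha : ‖a‖ < 1) (hb : ‖b‖ < 1) {m : ℕ}
    (h : ‖a - b‖ ≤ (p : ℝ)⁻¹ ^ p ^ m) : ‖S.ρ a - S.ρ b‖ ≤ (p : ℝ)⁻¹ ^ (m + 1) := by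
  have ha' := Theta.norm_root_lt (p := p) ha m
  have hb' := Theta.norm_root_lt (p := p) hb m
  have h1 := ((nearAdd S).close ha'.le hb'.le (Theta.norm_root_sub_le inv_p_nonneg h)).trans
    (max_le le_rfl le_rfl)
  have h2 := norm_pow_p_pow_sub_le (p := p) ((S.norm_eq _).trans_le ha'.le)
    ((S.norm_eq _).trans_le hb'.le) (j := 0) (by rwa [zero_add, pow_one]) m
  rwa [← map_pow, ← map_pow, Theta.root_pow, Theta.root_pow, zero_add] at h2

lemma tendsto_rho {s : ℕ → C} {a : C} (hs : ∀ i, ‖s i‖ < 1) (ha : ‖a‖ < 1)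
    (h : Tendsto s atTop (𝓝 a)) : Tendsto (fun i => S.ρ (s i)) atTop (𝓝 (S.ρ a)) := by
  rw [Metric.tendsto_atTop] at h ⊢
  intro ε hε
  obtain ⟨m, hm⟩ := exists_pow_lt_of_lt_one hε (inv_p_lt_one (p := p))
  obtain ⟨N, hN⟩ := h _ (pow_pos (inv_pos.2 (p_pos (p := p))) (p ^ m))
  refine ⟨N, fun i hi => lt_of_le_of_lt ?_ hm⟩
  rw [dist_eq_norm]
  refine (norm_rho_sub_le S (hs i) ha (m := m) ?_).trans ?_
  · rw [← dist_eq_norm]; exact (hN i hi).le
  · exact pow_le_pow_of_le_one inv_p_nonneg inv_p_lt_one.le (Nat.le_succ m)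

lemma tendsto_per (hn : 1 ≤ n) {η : C} (r : ℤ) {s : ℕ → C} {r₀ : ℝ} (hr : r₀ < 1)
    (hs : ∀ m, ‖s m‖ ≤ r₀) (h : Tendsto s atTop (𝓝 η)) :
    Tendsto (fun m => per p n S (s m) r) atTop (𝓝 (per p n S η r)) := by
  have h0 : 0 ≤ r₀ := (norm_nonneg _).trans (hs 0)
  have hη : ‖η‖ ≤ r₀ := le_of_tendsto' h.norm hs
  simp only [per_eq]
  refine tendsto_tsum_of_dominated (tendsto_bd n hn r h0 hr)
    (fun m k => norm_term_le S n (hs m) hr r k) fun k => ?_
  exact (tendsto_rho S (fun m => norm_zroot_lt ((hs m).trans_lt hr) _)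
    (norm_zroot_lt (hη.trans_lt hr) _) (continuous_zroot _ h)).mul_const _

/-! ### nonvanishing -/

/-- No two consecutive terms of the period have the same norm. -/
def NoTie (η : C) (r : ℤ) : Prop :=
  ∀ k : ℤ, ‖zroot p η (r + n * k)‖ ^ (p ^ n - 1) ≠ (p : ℝ)⁻¹

lemma per_ne_zero (hn : 1 ≤ n) {η : C} (hη : ‖η‖ < 1) (h0 : η ≠ 0) {r : ℤ}
    (hnt : NoTie n η r) : per p n S η r ≠ 0 := by
  set t : ℤ → ℝ := fun k => ‖term S n η r k‖
  have hq : 2 ≤ p ^ n := hp.out.two_le.trans (Nat.le_self_pow (by omega) p)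
  have htpos : ∀ k, 0 < t k := fun k => by
    simp only [t, norm_term]
    exact mul_pos (norm_pos_iff.2 (zroot_ne_zero h0 _)) (zpow_pos p_pos _)
  have hstep : ∀ k, t (k + 1) = t k * ((p : ℝ) * ‖zroot p η (r + n * k)‖ ^ (p ^ n - 1)) := fun k => by
    simp only [t, norm_term]
    rw [show r + n * (k + 1) = r + n * k + n by ring, zroot_add, norm_pow, zpow_add_one₀ p_pos.ne']
    conv_lhs => rw [show p ^ n = (p ^ n - 1) + 1 by omega, pow_succ]
    ring
  set R : ℤ → ℝ := fun k => (p : ℝ) * ‖zroot p η (r + n * k)‖ ^ (p ^ n - 1)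
  have hR : ∀ k, R k ≠ 1 := fun k h => hnt k (eq_inv_of_mul_eq_one_right h)
  have hdec : ∀ (k : ℤ) (d : ℕ), R k < 1 → R (k + d) < 1 := by
    intro k d hk
    induction d with
    | zero => simpa using hk
    | succ d ih =>
      refine lt_of_le_of_lt ?_ ih
      simp only [R]
      refine mul_le_mul_of_nonneg_left (pow_le_pow_left₀ (norm_nonneg _) ?_ _) p_pos.le
      rw [show r + n * (k + ((d + 1 : ℕ) : ℤ)) = r + n * (k + d) + n by push_cast; ring, zroot_add,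
        norm_pow]
      exact pow_le_of_le_one (norm_nonneg _) (norm_zroot_lt hη _).le
        (pow_ne_zero _ hp.out.ne_zero)
  have hsum := summable_term S n hn hη r
  have hlim : Tendsto t cofinite (𝓝 0) := by simpa using hsum.tendsto_cofinite_zero.norm
  have hfin : {k | ¬ t k < t 0}.Finite := eventually_cofinite.1 (hlim.eventually (gt_mem_nhds (htpos 0)))
  obtain ⟨j, hj, hjmax⟩ := hfin.toFinset.exists_max_image t ⟨0, hfin.mem_toFinset.2 (lt_irrefl _)⟩
  have hmax : ∀ k, t k ≤ t j := fun k => by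
    by_cases hk : t k < t 0
    · exact hk.le.trans (hjmax 0 (hfin.mem_toFinset.2 (lt_irrefl _)))
    · exact hjmax k (hfin.mem_toFinset.2 hk)
  have huniq : ∀ a b, a < b → (∀ k, t k ≤ t a) → t b < t a := by
    intro a b hab hamax
    have hRa : R a < 1 := by
      refine lt_of_le_of_ne ?_ (hR a)
      have := hamax (a + 1)
      rw [hstep] at this
      exact le_of_mul_le_mul_left (by simpa using this) (htpos a)
    obtain ⟨d, rfl⟩ : ∃ d : ℕ, b = a + (d : ℤ) + 1 := ⟨(b - a - 1).toNat, by omega⟩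
    rw [hstep]
    exact lt_of_lt_of_le (mul_lt_of_lt_one_right (htpos _) (hdec a d hRa)) (hamax _)
  rw [per_eq]
  refine tsum_ne_zero_of_unique_max hsum j (norm_pos_iff.1 (htpos j)) fun k hk => ?_
  rcases lt_or_gt_of_ne hk with h | h
  · by_contra hge
    have heq : t k = t j := le_antisymm (hmax k) (not_lt.1 hge)
    exact absurd (huniq k j h fun i => heq ▸ hmax i) (by rw [heq]; exact lt_irrefl _)
  · exact huniq j k h hmax

lemma norm_zroot_pow_eq (η : C) (z : ℤ) (a : ℕ) :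
    ‖zroot p η (z + a)‖ = ‖zroot p η z‖ ^ p ^ a := by rw [zroot_add, norm_pow]

/-- Ties at two shifts differ by a multiple of `n`. -/
lemma zroot_norm_inj {η : C} (hη : ‖η‖ < 1) (h0 : η ≠ 0) {z z' : ℤ} {m : ℕ}
    (h : ‖zroot p η z‖ ^ m = ‖zroot p η z'‖) :
    (z ≤ z' → m = p ^ (z' - z).toNat) ∧ (z' ≤ z → m * p ^ (z - z').toNat = 1) := by
  constructor
  · intro hle
    obtain ⟨d, rfl⟩ : ∃ d : ℕ, z' = z + d := ⟨(z' - z).toNat, by omega⟩
    rw [norm_zroot_pow_eq] at h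
    rw [show (z + (d : ℤ) - z).toNat = d by omega]
    exact (pow_right_strictAnti₀ (norm_pos_iff.2 (zroot_ne_zero h0 z))
      (norm_zroot_lt hη z)).injective h
  · intro hle
    obtain ⟨d, rfl⟩ : ∃ d : ℕ, z = z' + d := ⟨(z - z').toNat, by omega⟩
    rw [norm_zroot_pow_eq, ← pow_mul, mul_comm] at h
    rw [show (z' + (d : ℤ) - z').toNat = d by omega]
    exact (pow_right_strictAnti₀ (norm_pos_iff.2 (zroot_ne_zero h0 z'))
      (norm_zroot_lt hη z')).injective (h.trans (pow_one _).symm)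

lemma exists_noTie_r (hn : 2 ≤ n) {η : C} (hη : ‖η‖ < 1) (h0 : η ≠ 0) :
    ∃ r : ℕ, r < n ∧ NoTie n η (r : ℤ) := by
  by_contra hc
  push Not at hc
  have h1 : ¬ NoTie n η ((0 : ℕ) : ℤ) := hc 0 (by omega)
  have h2 : ¬ NoTie n η ((1 : ℕ) : ℤ) := hc 1 (by omega)
  simp only [NoTie, not_forall, not_not] at h1 h2
  obtain ⟨a, ha⟩ := h1
  obtain ⟨b, hb⟩ := h2
  have hq : p ^ n - 1 ≠ 0 := by
    have : 2 ≤ p ^ n := hp.out.two_le.trans (Nat.le_self_pow (by omega) p)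
    omega
  have heq := (pow_left_inj₀ (norm_nonneg _) (norm_nonneg _) hq).1 (ha.trans hb.symm)
  obtain ⟨e1, e2⟩ := zroot_norm_inj hη h0 (m := 1) ((pow_one _).trans heq)
  have hne : ((0 : ℕ) : ℤ) + n * a ≠ ((1 : ℕ) : ℤ) + n * b := by
    intro h
    have hdvd : (n : ℤ) ∣ 1 := ⟨a - b, by push_cast at h; linarith⟩
    have := Int.le_of_dvd one_pos hdvd
    omega
  rcases le_total (((0 : ℕ) : ℤ) + n * a) (((1 : ℕ) : ℤ) + n * b) with h | h
  · exact absurd (e1 h).symm (Nat.one_lt_pow (by omega) hp.out.one_lt).ne'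
  · have := e2 h
    rw [one_mul] at this
    exact absurd this (Nat.one_lt_pow (by omega) hp.out.one_lt).ne'

lemma exists_noTie (hn : 1 ≤ n) {π : C} (hπ : ‖π‖ < 1) (h0 : π ≠ 0) :
    ∃ η : C, η ≠ 0 ∧ ‖η‖ < 1 ∧ NoTie n η 0 := by
  by_cases h1 : NoTie n π 0
  · exact ⟨π, h0, hπ, h1⟩
  refine ⟨π ^ (p + 1), pow_ne_zero _ h0, ?_, ?_⟩
  · rw [norm_pow]; exact pow_lt_one₀ (norm_nonneg _) hπ (Nat.succ_ne_zero p)
  intro k hk
  simp only [NoTie, not_forall, not_not] at h1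
  obtain ⟨a, ha⟩ := h1
  rw [zroot_pow, norm_pow] at hk
  have hq : p ^ n - 1 ≠ 0 := by
    have : 2 ≤ p ^ n := hp.out.two_le.trans (Nat.le_self_pow (by omega) p)
    omega
  have heq := (pow_left_inj₀ (pow_nonneg (norm_nonneg _) _) (norm_nonneg _) hq).1 (hk.trans ha.symm)
  obtain ⟨e1, e2⟩ := zroot_norm_inj hπ h0 heq
  rcases le_total ((0 : ℤ) + n * k) (0 + n * a) with h | h
  · have h3 := e1 h
    rcases Nat.eq_zero_or_pos ((0 + n * a - (0 + n * k) : ℤ)).toNat with he | he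
    · rw [he, pow_zero] at h3
      have := hp.out.two_le
      omega
    · have hd : p ∣ p ^ ((0 + n * a - (0 + n * k) : ℤ)).toNat := dvd_pow_self p he.ne'
      rw [← h3, Nat.dvd_add_right (dvd_refl p)] at hd
      exact hp.out.one_lt.ne' (Nat.dvd_one.1 hd)
  · have := Nat.eq_one_of_mul_eq_one_right (e2 h)
    have := hp.out.two_le
    omega

end Vale.Agent.P217.Period
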