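import Vale.Agent.P217.Theta.Target
import Vale.Agent.P217.Formal.LowDegree
import Vale.Agent.P217.Eval
import Vale.Agent.P217.Period.Periods

/-!
# P217: quasi-periods, the logarithm on points, and the period of a lift
-/

noncomputable section

set_option linter.unusedSectionVars false

namespace Vale.Agent.P217.Period

open MvPowerSeries Finset Filter Topology

variable {p : ℕ} [hp : Fact p.Prime]

/-- Coefficients of the logarithm. -/
def lc (p : ℕ) [Fact p.Prime] (v : ℕ → ℂ_[p]) (K : ℕ) : ℂ_[p] := L p v K / (p : ℂ_[p]) ^ K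

lemma norm_L_le {v : ℕ → ℂ_[p]} (hv : ∀ i, ‖v i‖ ≤ 1) (K : ℕ) : ‖L p v K‖ ≤ 1 := by
  rw [show L p v K = (unitBall ℂ_[p]).subtype (L p (fun i => (⟨v i, hv i⟩ : unitBall ℂ_[p])) K) by
    rw [map_L]; rfl]
  exact (L p (fun i => (⟨v i, hv i⟩ : unitBall ℂ_[p])) K).2

lemma norm_lc_le {v : ℕ → ℂ_[p]} (hv : ∀ i, ‖v i‖ ≤ 1) (K : ℕ) : ‖lc p v K‖ ≤ (p : ℝ) ^ K := by
  rw [lc, norm_div, norm_pow, norm_p, inv_pow, div_inv_eq_mul]
  exact mul_le_of_le_one_left (pow_nonneg p_pos.le _) (norm_L_le hv K)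

section Tuple

variable {n : ℕ} {u : Fin (n - 1) → ℂ_[p]}

lemma norm_vTuple_le (hu : Small u) (i : ℕ) : ‖vTuple n u i‖ ≤ 1 := by
  unfold vTuple
  split_ifs
  exacts [(hu _).le, norm_one.le, by simp]

lemma norm_L_add_sub_le (hn : 1 ≤ n) (hu : Small u) {c : ℝ} (hc0 : 0 ≤ c) (hc1 : c ≤ 1)
    (huc : ∀ i, ‖u i‖ ≤ c) (N : ℕ) :
    ‖L p (vTuple n u) (N + n) - (p : ℂ_[p]) ^ (n - 1) * L p (vTuple n u) N‖ ≤ c ^ p ^ N := by
  set v := vTuple n u with hv
  obtain ⟨m, rfl⟩ : ∃ m, n = m + 1 := ⟨n - 1, by omega⟩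
  rw [show N + (m + 1) = (N + m) + 1 by ring, L_succ, Nat.add_sub_cancel,
    ← Finset.add_sum_erase _ _ (Finset.mem_range.2 (show m < N + m + 1 by omega))]
  have hm : v (m + 1) = 1 := by
    rw [hv, vTuple, dif_neg (by omega), if_pos rfl]
  rw [hm, one_pow, one_mul, show N + m - m = N by omega, add_sub_cancel_left]
  refine IsUltrametricDist.norm_sum_le_of_forall_le_of_nonneg (pow_nonneg hc0 _) fun i hi => ?_
  obtain ⟨hne, hi⟩ := Finset.mem_erase.1 hi
  rw [norm_mul, norm_mul]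
  refine (mul_le_of_le_one_right (by positivity) (norm_L_le (norm_vTuple_le hu) _)).trans ?_
  refine (mul_le_of_le_one_right (norm_nonneg _) ?_).trans ?_
  · rw [norm_pow, norm_p]; exact pow_le_one₀ inv_p_nonneg inv_p_lt_one.le
  rw [norm_pow, hv, vTuple]
  rcases lt_or_gt_of_ne hne with h | h
  · rw [dif_pos ⟨by omega, by omega⟩]
    exact (pow_le_pow_left₀ (norm_nonneg _) (huc _) _).trans
      (pow_le_pow_of_le_one hc0 hc1 (Nat.pow_le_pow_right hp.out.pos (by omega)))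
  · rw [dif_neg (by omega), if_neg (by omega), norm_zero, zero_pow (pow_ne_zero _ hp.out.ne_zero)]
    exact pow_nonneg hc0 _

/-- The sequence defining a quasi-period. -/
def aSeq (p : ℕ) [Fact p.Prime] (n : ℕ) (v : ℕ → ℂ_[p]) (r k : ℕ) : ℂ_[p] :=
  (p : ℂ_[p]) ^ k * lc p v (n * k + r)

lemma norm_aSeq_succ_sub (hn : 1 ≤ n) (hu : Small u) {c : ℝ} (hc0 : 0 ≤ c) (hc1 : c ≤ 1)
    (huc : ∀ i, ‖u i‖ ≤ c) (r k : ℕ) :
    ‖aSeq p n (vTuple n u) r (k + 1) - aSeq p n (vTuple n u) r k‖ ≤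
      c ^ p ^ (n * k + r) * (p : ℝ) ^ (n * k + r) * (p : ℝ) ^ n := by
  set N := n * k + r with hN
  have h : aSeq p n (vTuple n u) r (k + 1) - aSeq p n (vTuple n u) r k =
      (p : ℂ_[p]) ^ (k + 1) / (p : ℂ_[p]) ^ (N + n) *
        (L p (vTuple n u) (N + n) - (p : ℂ_[p]) ^ (n - 1) * L p (vTuple n u) N) := by
    obtain ⟨m, rfl⟩ : ∃ m, n = m + 1 := ⟨n - 1, by omega⟩
    simp only [aSeq, lc, Nat.add_sub_cancel]
    rw [show (m + 1) * (k + 1) + r = N + (m + 1) by rw [hN]; ring, ← hN, mul_sub,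
      div_mul_eq_mul_div, div_mul_eq_mul_div, mul_div_assoc]
    congr 1
    have := p_ne_zero (p := p)
    field_simp
    ring
  rw [h, norm_mul, norm_div, norm_pow, norm_pow, norm_p, mul_comm, inv_pow (p : ℝ) (N + n),
    div_inv_eq_mul, mul_assoc, ← pow_add]
  refine mul_le_mul (norm_L_add_sub_le hn hu hc0 hc1 huc N) ?_ (by positivity) (pow_nonneg hc0 _)
  exact mul_le_of_le_one_left (pow_nonneg p_pos.le _) (pow_le_one₀ inv_p_nonneg inv_p_lt_one.le)

lemma exists_tendsto_aSeq (hn : 1 ≤ n) (hu : Small u) (r : ℕ) :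
    ∃ w, Tendsto (aSeq p n (vTuple n u) r) atTop (𝓝 w) := by
  obtain ⟨c, hc0, hc1, huc⟩ := Eval.exists_radius hu
  set a := aSeq p n (vTuple n u) r
  have hlim : Tendsto (fun k : ℕ => c ^ p ^ (n * k + r) * (p : ℝ) ^ (n * k + r) * (p : ℝ) ^ n)
      atTop (𝓝 0) := by
    have h : Tendsto (fun k : ℕ => n * k + r) atTop atTop :=
      tendsto_atTop_mono (fun k => (Nat.le_mul_of_pos_left k hn).trans (Nat.le_add_right _ _))
        tendsto_id
    simpa using ((tendsto_dexp (p := p) hc0 hc1 (p_pos (p := p)).le).comp h).mul_const ((p : ℝ) ^ n)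
  have hs : Summable fun k => a (k + 1) - a k := by
    refine NonarchimedeanAddGroup.summable_of_tendsto_cofinite_zero ?_
    rw [Nat.cofinite_eq_atTop]
    exact squeeze_zero_norm (norm_aSeq_succ_sub hn hu hc0 hc1.le huc r) hlim
  refine ⟨(∑' k, (a (k + 1) - a k)) + a 0, (hs.hasSum.tendsto_sum_nat.add_const (a 0)).congr
    fun k => ?_⟩
  rw [Finset.sum_range_sub, sub_add_cancel]

lemma tendsto_wper (hn : 1 ≤ n) (hu : Small u) (r : ℕ) :
    Tendsto (aSeq p n (vTuple n u) r) atTop (𝓝 (wper p n (vTuple n u) r)) := by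
  obtain ⟨w, hw⟩ := exists_tendsto_aSeq hn hu r
  rwa [show wper p n (vTuple n u) r = w from hw.limUnder_eq]

lemma wper_honda (hn : 1 ≤ n) {r : ℕ} (hr : r < n) :
    wper p n (vTuple n fun _ => (0 : ℂ_[p])) r = if r = 0 then 1 else 0 := by
  set u : Fin (n - 1) → ℂ_[p] := fun _ => 0
  have hu : Small u := fun _ => by simp [u]
  have hconst : ∀ k, aSeq p n (vTuple n u) r k = aSeq p n (vTuple n u) r 0 := by
    intro k
    induction k with
    | zero => rfl
    | succ k ih =>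
      rw [← ih, ← sub_eq_zero, ← norm_le_zero_iff]
      refine (norm_aSeq_succ_sub hn hu le_rfl zero_le_one (fun i => by simp [u]) r k).trans_eq ?_
      rw [zero_pow (pow_ne_zero _ hp.out.ne_zero), zero_mul, zero_mul]
  rw [tendsto_nhds_unique (tendsto_wper hn hu r)
    ((tendsto_const_nhds (x := aSeq p n (vTuple n u) r 0)).congr fun k => (hconst k).symm)]
  simp only [aSeq, lc, pow_zero, one_mul, mul_zero, zero_add]
  split_ifs with h
  · subst h; simp [L_zero]
  · rw [(L_of_low p (j := n) (fun i h1 h2 => by simp [vTuple, h1, h2, u]) hp.out.ne_zero).1 r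
      (by omega) hr, zero_div]

end Tuple

/-! ## The logarithm on points -/

section Log

variable {v : ℕ → ℂ_[p]} (hv : ∀ i, ‖v i‖ ≤ 1)
include hv

lemma norm_lc_mul_pow_le (z : ℂ_[p]) (K : ℕ) :
    ‖lc p v K * z ^ p ^ K‖ ≤ ‖z‖ ^ p ^ K * (p : ℝ) ^ K := by
  rw [norm_mul, norm_pow, mul_comm]
  exact mul_le_mul_of_nonneg_left (norm_lc_le hv K) (pow_nonneg (norm_nonneg _) _)

lemma summable_logVal {z : ℂ_[p]} (hz : ‖z‖ < 1) : Summable fun K => lc p v K * z ^ p ^ K := by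
  refine NonarchimedeanAddGroup.summable_of_tendsto_cofinite_zero ?_
  rw [Nat.cofinite_eq_atTop]
  exact squeeze_zero_norm (norm_lc_mul_pow_le hv z)
    (tendsto_dexp (norm_nonneg z) hz p_pos.le)

lemma norm_logVal_sub_le {a b : ℂ_[p]} (ha : ‖a‖ < 1) (hb : ‖b‖ < 1) {j : ℕ}
    (h : ‖a - b‖ ≤ (p : ℝ)⁻¹ ^ (j + 1)) :
    ‖logVal p v a - logVal p v b‖ ≤ (p : ℝ)⁻¹ ^ (j + 1) := by
  change ‖(∑' K, lc p v K * a ^ p ^ K) - ∑' K, lc p v K * b ^ p ^ K‖ ≤ _
  rw [← (summable_logVal hv ha).tsum_sub (summable_logVal hv hb)]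
  refine Eval.norm_tsum_le (pow_nonneg inv_p_nonneg _) fun K => ?_
  rw [← mul_sub, norm_mul]
  refine (mul_le_mul (norm_lc_le hv K) (norm_pow_p_pow_sub_le ha.le hb.le h K) (norm_nonneg _)
    (pow_nonneg p_pos.le _)).trans_eq ?_
  rw [show j + K + 1 = K + (j + 1) by ring, pow_add, ← mul_assoc, inv_pow (p : ℝ) K,
    mul_inv_cancel₀ (pow_ne_zero _ p_pos.ne'), one_mul]

/-- The truncated logarithm, scaled to be integral. -/
def pl (v : ℕ → ℂ_[p]) (D : ℕ) : Polynomial ℂ_[p] :=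
  ∑ K ∈ Finset.range (D + 1), Polynomial.monomial (p ^ K) ((p : ℂ_[p]) ^ (D - K) * L p v K)

lemma intSer_pl (D : ℕ) : IntSer (pl v D : PowerSeries ℂ_[p]) := Eval.intSer_iff.2 fun m => by
  rw [Polynomial.coeff_coe, pl, Polynomial.finsetSum_coeff]
  refine IsUltrametricDist.norm_sum_le_of_forall_le_of_nonneg zero_le_one fun K _ => ?_
  rw [Polynomial.coeff_monomial]
  split_ifs
  · rw [norm_mul, norm_pow, norm_p]
    exact mul_le_one₀ (pow_le_one₀ inv_p_nonneg inv_p_lt_one.le) (norm_nonneg _) (norm_L_le hv K)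
  · simp

omit hv in
lemma coeff_pl {D m : ℕ} (hm : m < p ^ (D + 1)) :
    PowerSeries.coeff m (pl v D : PowerSeries ℂ_[p]) =
      (p : ℂ_[p]) ^ D * PowerSeries.coeff m (pLog p v) := by
  rw [Polynomial.coeff_coe, pl, Polynomial.finsetSum_coeff]
  simp only [Polynomial.coeff_monomial]
  by_cases hJ : ∃ J, m = p ^ J
  · obtain ⟨J, rfl⟩ := hJ
    have hJD : J < D + 1 := (Nat.pow_lt_pow_iff_right hp.out.one_lt).1 hm
    rw [coeff_pLog_pow, Finset.sum_eq_single J, if_pos rfl, Ring.inverse_eq_inv']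
    · rw [show D = D - J + J by omega, pow_add, Nat.add_sub_cancel, mul_comm (L p v J), mul_assoc,
        ← mul_assoc ((p : ℂ_[p]) ^ J), ← mul_pow, mul_inv_cancel₀ p_ne_zero, one_pow, one_mul]
    · intro K _ hK
      rw [if_neg fun h => hK (Nat.pow_right_injective hp.out.two_le h)]
    · intro h; exact absurd (Finset.mem_range.2 hJD) h
  · rw [not_exists] at hJ
    rw [coeff_pLog_other _ hJ, mul_zero]
    exact Finset.sum_eq_zero fun K _ => if_neg fun h => hJ K h.symm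

omit hv in
lemma ev1_pl (D : ℕ) (z : ℂ_[p]) :
    ev1 z (pl v D : PowerSeries ℂ_[p]) =
      (p : ℂ_[p]) ^ D * ∑ K ∈ Finset.range (D + 1), lc p v K * z ^ p ^ K := by
  rw [Eval.ev1_coe, pl, Polynomial.eval_finsetSum, Finset.mul_sum]
  refine Finset.sum_congr rfl fun K hK => ?_
  obtain ⟨d, rfl⟩ := Nat.exists_eq_add_of_le (Nat.le_of_lt_succ (Finset.mem_range.1 hK))
  have := p_ne_zero (p := p)
  rw [Polynomial.eval_monomial, lc, Nat.add_sub_cancel_left, pow_add]
  field_simp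

lemma norm_ev_pl_add_le {a b : ℂ_[p]} (ha : ‖a‖ < 1) (hb : ‖b‖ < 1) (D : ℕ) {R : ℝ}
    (hR1 : R ≤ 1) (haR : ‖a‖ ≤ R) (hbR : ‖b‖ ≤ R) :
    ‖ev1 (padd (law p v) a b) (pl v D : PowerSeries ℂ_[p]) -
      ev1 a (pl v D : PowerSeries ℂ_[p]) - ev1 b (pl v D : PowerSeries ℂ_[p])‖ ≤
        R ^ p ^ (D + 1) := by
  have hF : IntSer (law p v).toPowerSeries := Theta.intSer_law p hv
  have hP := intSer_pl hv D
  set P : PowerSeries ℂ_[p] := (pl v D : PowerSeries ℂ_[p])
  have hs : Small ![a, b] := Theta.small_pair ha hb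
  set Y : Fin 2 → MvPowerSeries (Fin 2) ℂ_[p] := MvPowerSeries.X
  have hint : ∀ g : MvPowerSeries (Fin 2) ℂ_[p], IntSer g → constantCoeff g = 0 →
      IntSer (P.subst g) := fun g hg hg0 => Eval.intSer_subst (fun _ => ⟨hg, hg0⟩) hP
  have h0 := hint _ hF (law p v).zero_constantCoeff
  have h1 := hint _ (Eval.intSer_X 0) (constantCoeff_X 0)
  have h2 := hint _ (Eval.intSer_X 1) (constantCoeff_X 1)
  have hev : ∀ g : MvPowerSeries (Fin 2) ℂ_[p], IntSer g → constantCoeff g = 0 →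
      ev ![a, b] (P.subst g) = ev1 (ev ![a, b] g) P := fun g hg hg0 =>
    Theta.ev1_subst evalTarget hg hg0 hP hs
  have hE : ev1 (padd (law p v) a b) P - ev1 a P - ev1 b P = ev ![a, b]
      (P.subst (law p v).toPowerSeries - P.subst (Y 0) - P.subst (Y 1)) := by
    rw [Eval.ev_sub (Eval.intSer_sub h0 h1) h2 hs, Eval.ev_sub h0 h1 hs,
      hev _ hF (law p v).zero_constantCoeff, hev (Y 0) (Eval.intSer_X 0) (constantCoeff_X 0),
      hev (Y 1) (Eval.intSer_X 1) (constantCoeff_X 1), Eval.ev_X, Eval.ev_X]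
    rfl
  rw [hE]
  have hR0 : 0 ≤ R := (norm_nonneg a).trans haR
  refine Eval.norm_tsum_le (pow_nonneg hR0 _) fun d => ?_
  rw [norm_mul]
  rcases lt_or_ge (deg d) (p ^ (D + 1)) with hd | hd
  · have hc : ∀ g : MvPowerSeries (Fin 2) ℂ_[p], constantCoeff g = 0 →
        coeff d (P.subst g) = (p : ℂ_[p]) ^ D * coeff d ((pLog p v).subst g) := fun g hg => by
      rw [coeff_subst_sum P hg (le_refl _), coeff_subst_sum (pLog p v) hg (le_refl _),
        Finset.mul_sum]
      refine Finset.sum_congr rfl fun m hm => ?_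
      have : m < p ^ (D + 1) := lt_of_le_of_lt (Nat.le_of_lt_succ (Finset.mem_range.1 hm)) hd
      rw [coeff_pl this, mul_assoc]
    have hlog := congrArg (coeff d) (hasLog_law p v (Ne.isUnit (p_ne_zero (p := p))))
    rw [map_add] at hlog
    have hz : coeff d (P.subst (law p v).toPowerSeries - P.subst (Y 0) - P.subst (Y 1)) = 0 := by
      rw [map_sub, map_sub, hc _ (law p v).zero_constantCoeff, hc (Y 0) (constantCoeff_X 0),
        hc (Y 1) (constantCoeff_X 1), hlog]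
      ring
    rw [hz, norm_zero, zero_mul]
    exact pow_nonneg hR0 _
  · refine (mul_le_of_le_one_left (norm_nonneg _)
      (Eval.intSer_sub (Eval.intSer_sub h0 h1) h2 d)).trans ?_
    exact (Eval.norm_mon_le (fun i => by fin_cases i; exacts [haR, hbR]) d).trans
      (pow_le_pow_of_le_one hR0 hR1 hd)

lemma logVal_padd {a b : ℂ_[p]} (ha : ‖a‖ < 1) (hb : ‖b‖ < 1) :
    logVal p v (padd (law p v) a b) = logVal p v a + logVal p v b := by
  have hab : ‖padd (law p v) a b‖ < 1 :=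
    Theta.norm_padd_lt evalTarget (Theta.intSer_law p hv) ha hb
  set R := max ‖a‖ ‖b‖
  have hR1 : R < 1 := max_lt ha hb
  have hlim : ∀ z : ℂ_[p], ‖z‖ < 1 →
      Tendsto (fun D => ∑ K ∈ Finset.range (D + 1), lc p v K * z ^ p ^ K) atTop
        (𝓝 (logVal p v z)) := fun z hz =>
    (summable_logVal hv hz).hasSum.tendsto_sum_nat.comp (tendsto_add_atTop_nat 1)
  rw [← sub_eq_zero, ← sub_sub]
  refine tendsto_nhds_unique (((hlim _ hab).sub (hlim a ha)).sub (hlim b hb)) ?_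
  refine squeeze_zero_norm (a := fun D : ℕ => R ^ p ^ D * (p : ℝ) ^ D) (fun D => ?_)
    (tendsto_dexp ((norm_nonneg a).trans (le_max_left _ _)) hR1 p_pos.le)
  have h := norm_ev_pl_add_le hv ha hb D hR1.le (le_max_left _ _) (le_max_right _ _)
  rw [ev1_pl, ev1_pl, ev1_pl, ← mul_sub, ← mul_sub, norm_mul, norm_pow, norm_p, inv_pow,
    inv_mul_le_iff₀ (pow_pos p_pos D), mul_comm] at h
  refine h.trans (mul_le_mul_of_nonneg_right ?_ (pow_nonneg p_pos.le _))
  exact pow_le_pow_of_le_one ((norm_nonneg a).trans (le_max_left _ _)) hR1.le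
    (Nat.pow_le_pow_right hp.out.pos (Nat.le_succ D))

omit hv in
lemma logVal_zero : logVal p v 0 = 0 := by
  change ∑' K, lc p v K * (0 : ℂ_[p]) ^ p ^ K = 0
  simp [zero_pow (pow_ne_zero _ hp.out.ne_zero)]

lemma logVal_pmul {z : ℂ_[p]} (hz : ‖z‖ < 1) :
    ∀ m : ℕ, logVal p v (pmul (law p v) m z) = m * logVal p v z
  | 0 => by rw [Theta.pmul_zero evalTarget, logVal_zero, Nat.cast_zero, zero_mul]
  | m + 1 => by
    rw [Theta.pmul_succ evalTarget (Theta.intSer_law p hv) hz, logVal_padd hv hz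
      (Theta.norm_pmul_lt evalTarget (Theta.intSer_law p hv) hz m), logVal_pmul hz m]
    push_cast
    ring

end Log

/-! ## The period of a lift -/

variable {C : Type} [NormedField C] [IsUltrametricDist C] [CompleteSpace C] [CharP C p]
  [PerfectRing C p] {n : ℕ} {u : Fin (n - 1) → ℂ_[p]}

/-- The weights with which the `M`-th approximation meets the terms of a period. -/
def wgt (p : ℕ) [Fact p.Prime] (n : ℕ) (v : ℕ → ℂ_[p]) (r M : ℕ) (j : ℤ) : ℂ_[p] :=
  if -(M : ℤ) ≤ j then aSeq p n v r (j + M).toNat else 0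

lemma tendsto_tsum_wgt (hn : 1 ≤ n) (hu : Small u) (S : Sharp p C) {η : C} (hη : ‖η‖ < 1)
    (r : ℕ) :
    Tendsto (fun M => ∑' j, wgt p n (vTuple n u) r M j * term S n η (r : ℤ) j) atTop
      (𝓝 (wper p n (vTuple n u) r * per p n S η r)) := by
  have hw := tendsto_wper hn hu r
  obtain ⟨B, hB⟩ := hw.norm.bddAbove_range
  set B' := max B 0
  rw [per_eq, ← tsum_mul_left]
  refine tendsto_tsum_of_dominated (b := fun j => B' * ‖term S n η (r : ℤ) j‖) ?_
    (fun M j => ?_) fun j => ?_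
  · simpa using ((summable_term S n hn hη (r : ℤ)).tendsto_cofinite_zero.norm).const_mul B'
  · rw [norm_mul]
    refine mul_le_mul_of_nonneg_right ?_ (norm_nonneg _)
    rw [wgt]
    split_ifs
    · exact (hB (Set.mem_range_self _)).trans (le_max_left _ _)
    · rw [norm_zero]; exact le_max_right _ _
  · have h : Tendsto (fun M : ℕ => (j + M).toNat) atTop atTop :=
      tendsto_atTop.2 fun N => eventually_atTop.2 ⟨N + j.natAbs, fun M hM => by omega⟩
    refine ((hw.comp h).mul_const (term S n η (r : ℤ) j)).congr' ?_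
    filter_upwards [eventually_ge_atTop j.natAbs] with M hM
    rw [wgt, if_pos (by omega)]
    rfl

lemma logVal_seq (hn : 1 ≤ n) (hu : Small u) (S : Sharp p C) {η : C} (hη : ‖η‖ < 1) (M : ℕ) :
    logVal p (vTuple n u) (pmul (law p (vTuple n u)) (p ^ M) (S.ρ (root p η (n * M)))) =
      ∑ r ∈ Finset.range n, ∑' j, wgt p n (vTuple n u) r M j * term S n η (r : ℤ) j := by
  have : NeZero n := ⟨by omega⟩
  set v := vTuple n u
  have hv := norm_vTuple_le hu
  set z := S.ρ (root p η (n * M))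
  have hz : ‖z‖ < 1 := (S.norm_eq _).trans_lt (Theta.norm_root_lt hη _)
  set F : ℕ → ℂ_[p] := fun K => (p : ℂ_[p]) ^ M * (lc p v K * z ^ p ^ K)
  have hF : Summable F := (summable_logVal hv hz).mul_left _
  have hterm : ∀ q r : ℕ, F (q * n + r) =
      aSeq p n v r q * term S n η (r : ℤ) ((q : ℤ) - M) := fun q r => by
    simp only [F, z, aSeq, term, ← map_pow]
    rw [show (r : ℤ) + n * ((q : ℤ) - M) = ((q * n + r : ℕ) : ℤ) - (n * M : ℕ) by push_cast; ring,
      zroot_sub, root_pow_nat, mul_comm n q, neg_sub, zpow_sub₀ p_ne_zero, zpow_natCast,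
      zpow_natCast]
    have := p_ne_zero (p := p)
    field_simp
  have hinj : ∀ r : ℕ, ∑' q : ℕ, F (q * n + r) = ∑' j, wgt p n v r M j * term S n η (r : ℤ) j := by
    intro r
    have hi : Function.Injective fun q : ℕ => (q : ℤ) - M := fun a b h => by simpa using h
    rw [← hi.tsum_eq (f := fun j => wgt p n v r M j * term S n η (r : ℤ) j) fun j hj => ?_]
    · refine tsum_congr fun q => ?_
      rw [hterm, wgt, if_pos (by omega), show ((q : ℤ) - M + M).toNat = q by omega]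
    · have hj' : -(M : ℤ) ≤ j := by
        by_contra hc
        exact hj (by simp only [wgt, if_neg hc, zero_mul])
      exact ⟨(j + M).toNat, by simp only; omega⟩
  have hsum : ∀ r : Fin n, Summable fun q : ℕ => F (q * n + (r : ℕ)) := fun r =>
    hF.comp_injective fun a b h => Nat.eq_of_mul_eq_mul_right (by omega) (Nat.add_right_cancel h)
  calc logVal p v (pmul (law p v) (p ^ M) z) = ∑' K, F K := by
        rw [logVal_pmul hv hz, Nat.cast_pow]
        exact tsum_mul_left.symm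
    _ = ∑' x : ℕ × Fin n, F ((Nat.divModEquiv n).symm x) := ((Nat.divModEquiv n).symm.tsum_eq F).symm
    _ = ∑' q : ℕ, ∑ r : Fin n, F (q * n + (r : ℕ)) := by
        rw [Summable.tsum_prod (f := fun x : ℕ × Fin n => F ((Nat.divModEquiv n).symm x))
          ((Nat.divModEquiv n).symm.summable_iff.2 hF)]
        exact tsum_congr fun q => tsum_fintype _
    _ = ∑ r : Fin n, ∑' q : ℕ, F (q * n + (r : ℕ)) := Summable.tsum_finsetSum fun r _ => hsum r
    _ = _ := by
        rw [Finset.sum_range]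
        exact Finset.sum_congr rfl fun r _ => hinj r

theorem logVal_theta (hn : 1 ≤ n) (hu : Small u) (S : Sharp p C) {η : C} (hη : ‖η‖ < 1) :
    logVal p (vTuple n u) (theta p n S.ρ (vTuple n u) η) = Lv p n S (vTuple n u) η := by
  obtain ⟨cu, hcu0, hcu1, hcu⟩ := Eval.exists_radius hu
  set c := max (p : ℝ)⁻¹ cu
  have hc1 : c < 1 := max_lt inv_p_lt_one hcu1
  have hpc : (p : ℝ)⁻¹ ≤ c := le_max_left _ _
  let T : Theta.Setup p n C ℂ_[p] :=
    ⟨evalTarget, lowDegreeTarget, S.ρ, c,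
      ⟨inv_p_nonneg.trans hpc, hc1, S.norm_eq,
        fun a b ha hb => ((nearAdd S).add_le a b ha hb).trans hpc⟩,
      norm_p.trans_le hpc, hn, vTuple n u,
      Theta.nearHonda_vTuple (inv_p_nonneg.trans hpc) hc1.le fun i => (hcu i).trans (le_max_right _ _)⟩
  have hv := norm_vTuple_le hu
  have hseq : Tendsto (fun M => logVal p (vTuple n u) (T.seq η M)) atTop
      (𝓝 (logVal p (vTuple n u) (theta p n S.ρ (vTuple n u) η))) := by
    rw [Metric.tendsto_atTop]
    intro ε hε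
    obtain ⟨j, hj⟩ := exists_pow_lt_of_lt_one hε (inv_p_lt_one (p := p))
    have hsm := tendsto_iff_norm_sub_tendsto_zero.1 (T.tendsto_seq hη)
    obtain ⟨N, hN⟩ := (Metric.tendsto_atTop.1 hsm) ((p : ℝ)⁻¹ ^ (j + 1))
      (pow_pos (inv_pos.2 p_pos) _)
    refine ⟨N, fun M hM => lt_of_le_of_lt ?_ hj⟩
    rw [dist_eq_norm]
    refine (norm_logVal_sub_le hv (T.norm_seq_lt hη M) (T.norm_theta_lt hη) (j := j) ?_).trans
      (pow_le_pow_of_le_one inv_p_nonneg inv_p_lt_one.le (Nat.le_succ j))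
    have := hN M hM
    rw [Real.dist_0_eq_abs, abs_norm] at this
    exact this.le
  refine tendsto_nhds_unique hseq ?_
  refine (tendsto_finsetSum _ fun r _ => tendsto_tsum_wgt hn hu S hη r).congr fun M => ?_
  exact (logVal_seq hn hu S hη M).symm

end Vale.Agent.P217.Period
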